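import Mathlib

namespace Vale.Agent.P333

/-- Self-delimiting code of a binary string: its length in unary, a zero, the string. -/
def esc (l : List Bool) : List Bool := List.replicate l.length true ++ false :: l

/-- Code of a string whose letters are binary strings. -/
def encWord (w : List (List Bool)) : List Bool := w.flatMap esc

/-- Code of an instance. -/
def encInst (S : List (List (List Bool))) : List Bool := S.flatMap fun w => esc (encWord w)

/-- `T` contains every member of `S` as a contiguous substring. -/
def IsSuper (S : List (List (List Bool))) (T : List (List Bool)) : Prop := ∀ s ∈ S, s <:+: T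

/-- The minimum length of a common superstring. -/
noncomputable def OPT (S : List (List (List Bool))) : ℕ :=
  sInf {n | ∃ T, IsSuper S T ∧ T.length = n}

/-- A polynomial-time `ρ`-approximation exists. -/
def HasApprox (ρ : ℝ) : Prop :=
  ∃ A : List (List (List Bool)) → List (List Bool),
    (∃ h : Turing.TM2ComputableInPolyTime encInst encWord A, ∀ k, Finite (h.tm.Γ k)) ∧
    ∀ S, IsSuper S (A S) ∧ ((A S).length : ℝ) ≤ ρ * OPT S

/-- The infimum of all approximation ratios achievable in polynomial time. -/
noncomputable def rhoStar : ℝ := sInf {ρ | 1 ≤ ρ ∧ HasApprox ρ}

end Vale.Agent.P333
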