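import Vale.Agent.PT.Typed
import Vale.Agent.P333.Defs

/-! Polynomial-time functions on lists of arbitrary represented types. -/

namespace Vale.Agent.P333

open Vale.Agent.PT

variable {α β γ : Type} [Ctx Bool α]

def lead : List Bool → ℕ
  | [] => 0
  | c :: P => cond c (lead P + 1) 0

def first1 (s : List Bool) : List Bool := (s.drop (lead s + 1)).take (lead s)

def rest1 (s : List Bool) : List Bool := s.drop (2 * lead s + 1)

lemma lead_esc (l r : List Bool) : lead (esc l ++ r) = l.length := by
  have : ∀ n (x : List Bool), lead (List.replicate n true ++ false :: x) = n := fun n x => by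
    induction n with
    | zero => rfl
    | succ n ih => simp [List.replicate_succ, lead, ih]
  simpa [esc] using this l.length (l ++ r)

lemma first1_esc (l r : List Bool) : first1 (esc l ++ r) = l := by
  rw [first1, lead_esc]
  simp [esc, List.drop_append]

lemma rest1_esc (l r : List Bool) : rest1 (esc l ++ r) = r := by
  rw [rest1, lead_esc]
  have : 2 * l.length + 1 = (esc l).length := by simp [esc]; omega
  rw [this, List.drop_left]

lemma length_esc (l : List Bool) : (esc l).length = 2 * l.length + 1 := by simp [esc]; omega

theorem pt_dropB {l : α → List Bool} {k : α → ℕ} (hl : PT Bool l) (hk : PT Bool k) :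
    PT Bool fun a => (l a).drop (k a) :=
  PT.natRec hk (fun a i => (l a).drop i) (by simpa using hl) (fun x => x.2.2.tail) (by fun_prop)
    (fun a i => by simp) ⟨_, hl.size_pb, fun a i _ => by simp⟩

theorem pt_bit {l : α → List Bool} {k : α → ℕ} (hl : PT Bool l) (hk : PT Bool k) :
    PT Bool fun a => (l a).getD (k a) false :=
  (PT.casesHead (pt_dropB hl hk) (F := fun o _ => o.getD false) fun _ => PT.const _).congr
    fun a => by simp

@[fun_prop] theorem pt_min {b c : α → ℕ} (hb : PT Bool b) (hc : PT Bool c) :
    PT Bool fun a => min (b a) (c a) :=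
  (hb.sub (hb.sub hc)).congr fun a => by omega

@[fun_prop] theorem pt_max {b c : α → ℕ} (hb : PT Bool b) (hc : PT Bool c) :
    PT Bool fun a => max (b a) (c a) :=
  (hc.add (hb.sub hc)).congr fun a => by omega

theorem pt_takeB {l : α → List Bool} {k : α → ℕ} (hl : PT Bool l) (hk : PT Bool k) :
    PT Bool fun a => (l a).take (k a) := by
  have h1 : PT Bool fun x : α × ℕ => (l x.1).getD x.2 false := pt_bit (by fun_prop) (by fun_prop)
  have := PT.flatMapRange (Γ := Bool) (m := fun a => min (k a) (l a).length) (by fun_prop)
    (g := fun a i => cond ((l a).getD i false) [true] [false]) (by fun_prop)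
  refine this.congr fun a => ?_
  have e : (fun i => cond ((l a).getD i false) [true] [false]) = fun i => [(l a).getD i false] :=
    funext fun i => by cases (l a).getD i false <;> rfl
  rw [e, ← List.map_eq_flatMap]
  refine List.ext_getElem (by simp) fun i h1 h2 => ?_
  simp only [List.length_map, List.length_range] at h1
  simp [List.getElem?_eq_getElem (show i < (l a).length by omega)]

theorem pt_lead {l : α → List Bool} (hl : PT Bool l) : PT Bool fun a => lead (l a) := by
  apply PT.ofUnary
  refine PT.listRec hl (fun a P => List.replicate (lead P) default) (PT.const _)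
    (fun c x => List.replicate (cond c (x.2.2.length + 1) 0) default)
    (fun c => PT.toUnary (by fun_prop)) (fun a c P => by simp [lead])
    ⟨_, hl.size_pb, fun a P hP => ?_⟩
  have : ∀ P : List Bool, lead P ≤ P.length := fun P => by
    induction P with
    | nil => simp [lead]
    | cons b P ih => cases b <;> simp_all [lead]
  simpa using (this P).trans hP.length_le

theorem pt_first1 {l : α → List Bool} (hl : PT Bool l) : PT Bool fun a => first1 (l a) :=
  pt_takeB (pt_dropB hl ((pt_lead hl).add (PT.const _))) (pt_lead hl)

theorem pt_rest1 {l : α → List Bool} (hl : PT Bool l) : PT Bool fun a => rest1 (l a) :=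
  pt_dropB hl (((PT.const _).mul (pt_lead hl)).add (PT.const _))

theorem pt_esc {l : α → List Bool} (hl : PT Bool l) : PT Bool fun a => esc (l a) :=
  (PT.replicate hl.length true).append (PT.cons false hl)

theorem pt_restN {l : α → List Bool} {k : α → ℕ} (hl : PT Bool l) (hk : PT Bool k) :
    PT Bool fun a => rest1^[k a] (l a) :=
  PT.natRec hk (fun a i => rest1^[i] (l a)) hl (fun x => rest1 x.2.2) (pt_rest1 (by fun_prop))
    (fun a i => Function.iterate_succ_apply' _ _ _) ⟨_, hl.size_pb, fun a i _ => by
      induction i with
      | zero => simp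
      | succ i ih =>
        rw [Function.iterate_succ_apply', rest1, List.length_drop]
        have := ih (by omega)
        omega⟩

theorem pt_sumRange {m : α → ℕ} {g : α → ℕ → ℕ} (hm : PT Bool m)
    (hg : PT Bool fun x : α × ℕ => g x.1 x.2) :
    PT Bool fun a => ((List.range (m a)).map (g a)).sum :=
  (PT.flatMapRange hm (g := fun a i => List.replicate (g a i) default) hg.toUnary).length.congr
    fun a => by simp only [List.length_flatMap, List.length_replicate]

theorem pt_eqB {l r : α → List Bool} (hl : PT Bool l) (hr : PT Bool r) :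
    PT Bool fun a => decide (l a = r a) := by
  have h1 : PT Bool fun x : α × ℕ => (l x.1).getD x.2 false := pt_bit (by fun_prop) (by fun_prop)
  have h2 : PT Bool fun x : α × ℕ => (r x.1).getD x.2 false := pt_bit (by fun_prop) (by fun_prop)
  have h3 := pt_sumRange (m := fun a => (l a).length) (g := fun a i =>
    cond ((l a).getD i false) (cond ((r a).getD i false) 0 1) (cond ((r a).getD i false) 1 0))
    (by fun_prop) (by fun_prop)
  refine ((hl.length.beq hr.length).and' (h3.beq (PT.const 0))).congr fun a => ?_
  rw [Bool.eq_iff_iff]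
  simp only [Bool.and_eq_true, Nat.beq_eq, List.sum_eq_zero_iff, List.mem_map, List.mem_range,
    decide_eq_true_eq]
  constructor
  · rintro ⟨e1, e2⟩
    refine List.ext_getElem e1 fun i i1 i2 => ?_
    have := e2 _ ⟨i, i1, rfl⟩
    simp only [List.getD_eq_getElem _ _ i1, List.getD_eq_getElem _ _ i2] at this
    revert this
    cases (l a)[i] <;> cases (r a)[i] <;> simp
  · intro e
    rw [e]
    refine ⟨rfl, ?_⟩
    rintro _ ⟨i, -, rfl⟩
    cases (r a).getD i false <;> rfl

/-- Types that are polynomial-time retracts of binary strings. -/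
class Ret (α : Type) [Ctx Bool α] where
  pack : α → List Bool
  unpack : List Bool → α
  pt_pack : PT Bool pack
  pt_unpack : PT Bool unpack
  unpack_pack : ∀ a, unpack (pack a) = a

open Ret

instance : Ret (List Bool) := ⟨id, id, PT.id', PT.id', fun _ => rfl⟩

instance : Ret ℕ :=
  ⟨fun n => List.replicate n default, List.length, PT.toUnary PT.id', PT.id'.length,
    fun _ => by simp⟩

instance [Ctx Bool β] [Ret α] [Ret β] : Ret (α × β) where
  pack x := esc (pack x.1) ++ pack x.2
  unpack s := (unpack (first1 s), unpack (rest1 s))
  pt_pack := (pt_esc (pt_pack.comp (by fun_prop))).append (pt_pack.comp (by fun_prop))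
  pt_unpack := (pt_unpack.comp (pt_first1 PT.id')).pair (pt_unpack.comp (pt_rest1 PT.id'))
  unpack_pack x := by rw [first1_esc, rest1_esc, unpack_pack, unpack_pack]

def encL [Ret α] (l : List α) : List Bool := l.flatMap fun a => esc (pack a)

instance (priority := low) ctxL [Ret α] : Ctx Bool (List α) :=
  ⟨Unit, inferInstance, fun l _ => encL l⟩

section lists

variable [Ctx Bool β] [Ret β]

lemma ptL_iff {f : α → List β} : PT Bool f ↔ PT Bool fun a => encL (f a) := Iff.rfl

lemma size_L (l : List β) : size Bool l = (encL l).length := by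
  change ∑ _ : Unit, (encL l).length = _
  simp

lemma restN_encL (l : List β) (k : ℕ) : rest1^[k] (encL l) = encL (l.drop k) := by
  induction k generalizing l with
  | zero => rfl
  | succ k ih =>
    cases l with
    | nil => exact Function.iterate_fixed rfl _
    | cons a l =>
      rw [Function.iterate_succ_apply, List.drop_succ_cons, ← ih, encL, List.flatMap_cons,
        rest1_esc]
      rfl

lemma length_le_encL (l : List β) : l.length ≤ (encL l).length := by
  induction l with
  | nil => simp
  | cons a l ih =>
    simp only [encL, List.flatMap_cons, List.length_append, length_esc, List.length_cons] at ih ⊢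
    omega

lemma encL_eq_nil {l : List β} : encL l = [] ↔ l = [] := by
  refine ⟨fun h => ?_, fun h => by simp [h, encL]⟩
  have := length_le_encL l
  rw [h] at this
  simpa using this

def nblk (s : List Bool) : ℕ :=
  ((List.range s.length).map fun i => cond (rest1^[i] s).isEmpty 0 1).sum

lemma sum_lt (n m : ℕ) (h : n ≤ m) :
    ((List.range m).map fun i => cond (decide (n ≤ i)) 0 1).sum = n := by
  have : ∀ m, ((List.range m).map fun i => cond (decide (n ≤ i)) 0 1).sum = min n m := fun m => by
    induction m with
    | zero => simp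
    | succ m ih =>
      rw [List.range_succ, List.map_append, List.sum_append, ih]
      by_cases h : n ≤ m <;> simp [h] <;> omega
  rw [this]; omega

lemma nblk_encL (l : List β) : nblk (encL l) = l.length := by
  rw [nblk, ← sum_lt l.length _ (length_le_encL l)]
  congr 2
  funext i
  rw [restN_encL]
  congr 1
  rw [Bool.eq_iff_iff]
  simp [encL_eq_nil]

theorem pt_nblk {l : α → List Bool} (hl : PT Bool l) : PT Bool fun a => nblk (l a) := by
  have h1 : PT Bool fun x : α × ℕ => rest1^[x.2] (l x.1) := pt_restN (by fun_prop) (by fun_prop)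
  exact pt_sumRange hl.length (by fun_prop)

@[fun_prop] theorem pt_length {l : α → List β} (hl : PT Bool l) : PT Bool fun a => (l a).length :=
  (pt_nblk (ptL_iff.1 hl)).congr fun a => nblk_encL _

@[fun_prop] theorem pt_drop {l : α → List β} {k : α → ℕ} (hk : PT Bool k) (hl : PT Bool l) :
    PT Bool fun a => (l a).drop (k a) :=
  ptL_iff.2 ((pt_restN (ptL_iff.1 hl) hk).congr fun a => restN_encL _ _)

@[fun_prop] theorem pt_tail {l : α → List β} (hl : PT Bool l) : PT Bool fun a => (l a).tail :=
  (pt_drop (PT.const 1) hl).congr fun a => by simp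

@[fun_prop] theorem pt_getD {l : α → List β} {k : α → ℕ} {d : α → β} (hl : PT Bool l)
    (hk : PT Bool k) (hd : PT Bool d) : PT Bool fun a => (l a).getD (k a) (d a) := by
  have h1 : PT Bool fun a => (unpack (first1 (encL ((l a).drop (k a)))) : β) :=
    pt_unpack.comp (pt_first1 (ptL_iff.1 (pt_drop hk hl)))
  refine (PT.cond' ((pt_length hl).ble hk) hd h1).congr fun a => ?_
  by_cases h : (l a).length ≤ k a
  · rw [Nat.ble_eq_true_of_le h, List.getD_eq_default _ _ h]; rfl
  · rw [Bool.eq_false_iff.2 fun h' => h (Nat.le_of_ble_eq_true h'), cond_false,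
      List.drop_eq_getElem_cons (by omega), encL, List.flatMap_cons, first1_esc, unpack_pack,
      List.getD_eq_getElem _ _ (by omega)]

@[fun_prop] theorem pt_append {l r : α → List β} (hl : PT Bool l) (hr : PT Bool r) :
    PT Bool fun a => l a ++ r a :=
  ptL_iff.2 (((ptL_iff.1 hl).append (ptL_iff.1 hr)).congr fun a => by simp [encL])

@[fun_prop] theorem pt_cons {b : α → β} {r : α → List β} (hb : PT Bool b) (hr : PT Bool r) :
    PT Bool fun a => b a :: r a :=
  ptL_iff.2 (((pt_esc (pt_pack.comp hb)).append (ptL_iff.1 hr)).congr fun a => by simp [encL])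

theorem pt_flatMapRange {m : α → ℕ} {g : α → ℕ → List β} (hm : PT Bool m)
    (hg : PT Bool fun x : α × ℕ => g x.1 x.2) :
    PT Bool fun a => (List.range (m a)).flatMap (g a) :=
  ptL_iff.2 ((PT.flatMapRange hm (g := fun a i => encL (g a i)) (ptL_iff.1 hg)).congr fun a => by
    simp [encL, List.flatMap_assoc])

instance : Ret (List β) where
  pack := encL
  unpack s := (List.range (nblk s)).flatMap fun i => [unpack (first1 (rest1^[i] s))]
  pt_pack := ptL_iff.1 PT.id'
  pt_unpack := pt_flatMapRange (pt_nblk PT.id') (pt_cons (pt_unpack.comp (pt_first1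
    (pt_restN (by fun_prop) (by fun_prop)))) (PT.const _))
  unpack_pack l := by
    rw [nblk_encL, ← List.map_eq_flatMap]
    refine List.ext_getElem (by simp) fun i h1 h2 => ?_
    rw [List.getElem_map, List.getElem_range, restN_encL, List.drop_eq_getElem_cons h2, encL,
      List.flatMap_cons, first1_esc, unpack_pack]

@[fun_prop] theorem pt_range {m : α → ℕ} (hm : PT Bool m) : PT Bool fun a => List.range (m a) :=
  (pt_flatMapRange hm (g := fun _ i => [i]) (by fun_prop)).congr fun a => by simp

lemma map_range_getD (l : List β) (d : β) : (List.range l.length).map (l.getD · d) = l :=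
  List.ext_getElem (by simp) fun i h1 h2 => by simp [List.getElem?_eq_getElem h2]

@[fun_prop] theorem pt_flatMap [Ctx Bool γ] [Ret γ] {l : α → List β} {g : α → β → List γ}
    (hg : PT Bool fun x : α × β => g x.1 x.2) (hl : PT Bool l) :
    PT Bool fun a => (l a).flatMap (g a) := by
  refine (pt_flatMapRange (pt_length hl) (g := fun a i => g a ((l a).getD i (unpack [])))
    (hg.comp (g := fun x : α × ℕ => (x.1, (l x.1).getD x.2 (unpack []))) (by fun_prop))).congr
    fun a => ?_
  conv_rhs => rw [← map_range_getD (l a) (unpack []), List.flatMap_map]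

@[fun_prop] theorem pt_map [Ctx Bool γ] [Ret γ] {l : α → List β} {g : α → β → γ}
    (hg : PT Bool fun x : α × β => g x.1 x.2) (hl : PT Bool l) :
    PT Bool fun a => (l a).map (g a) :=
  (pt_flatMap (g := fun a b => [g a b]) (by fun_prop) hl).congr fun a =>
    List.map_eq_flatMap.symm

@[fun_prop] theorem pt_filter {l : α → List β} {g : α → β → Bool}
    (hg : PT Bool fun x : α × β => g x.1 x.2) (hl : PT Bool l) :
    PT Bool fun a => (l a).filter (g a) :=
  (pt_flatMap (g := fun a b => cond (g a b) [b] []) (by fun_prop) hl).congr fun a => by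
    induction l a with
    | nil => rfl
    | cons b r ih => cases h : g a b <;> simp [h, ih]

@[fun_prop] theorem pt_countP {l : α → List β} {g : α → β → Bool}
    (hg : PT Bool fun x : α × β => g x.1 x.2) (hl : PT Bool l) :
    PT Bool fun a => (l a).countP (g a) :=
  (pt_length (pt_filter hg hl)).congr fun a => List.countP_eq_length_filter.symm

@[fun_prop] theorem pt_any {l : α → List β} {g : α → β → Bool} (hl : PT Bool l)
    (hg : PT Bool fun x : α × β => g x.1 x.2) : PT Bool fun a => (l a).any (g a) :=
  ((PT.const 1).ble (pt_countP hg hl)).congr fun a => by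
    rw [Bool.eq_iff_iff]
    simp [Nat.succ_le_iff]

@[fun_prop] theorem pt_all {l : α → List β} {g : α → β → Bool} (hl : PT Bool l)
    (hg : PT Bool fun x : α × β => g x.1 x.2) : PT Bool fun a => (l a).all (g a) :=
  (pt_any (g := fun a b => !g a b) hl hg.not').not'.congr fun a => by
    rw [Bool.eq_iff_iff]
    simp

@[fun_prop] theorem pt_take {l : α → List β} {k : α → ℕ} (hk : PT Bool k) (hl : PT Bool l) :
    PT Bool fun a => (l a).take (k a) := by
  refine (pt_map (l := fun a => List.range (min (k a) (l a).length))
    (g := fun a i => (l a).getD i (unpack [])) (by fun_prop) (by fun_prop)).congr fun a => ?_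
  refine List.ext_getElem (by simp) fun i h1 h2 => ?_
  simp only [List.length_map, List.length_range] at h1
  simp [List.getElem?_eq_getElem (show i < (l a).length by omega)]

@[fun_prop] theorem pt_replicate {b : α → β} {k : α → ℕ} (hk : PT Bool k) (hb : PT Bool b) :
    PT Bool fun a => List.replicate (k a) (b a) :=
  (pt_map (l := fun a => List.range (k a)) (g := fun a _ => b a) (by fun_prop)
    (by fun_prop)).congr fun a => by simp

@[fun_prop] theorem pt_sum {l : α → List ℕ} (hl : PT Bool l) : PT Bool fun a => (l a).sum :=
  (pt_sumRange (pt_length hl) (g := fun a i => (l a).getD i 0) (by fun_prop)).congr fun a => by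
    rw [map_range_getD]

theorem pt_eq [DecidableEq β] {f g : α → β} (hf : PT Bool f) (hg : PT Bool g) :
    PT Bool fun a => decide (f a = g a) :=
  (pt_eqB (pt_pack.comp hf) (pt_pack.comp hg)).congr fun a => by
    rw [Bool.eq_iff_iff, decide_eq_true_eq, decide_eq_true_eq]
    exact ⟨fun h => by rw [← unpack_pack (f a), h, unpack_pack], fun h => by rw [h]⟩

/-- Bounded recursion with a value of any represented type. -/
theorem pt_rec {m : α → ℕ} (hm : PT Bool m) (G : α → ℕ → β) (h0 : PT Bool fun a => G a 0)
    (H : α × ℕ × β → β) (hH : PT Bool H) (hG : ∀ a i, G a (i + 1) = H (a, i, G a i))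
    (hb : ∃ Bd : α → ℕ, PB Bd (size Bool) ∧ ∀ a i, i ≤ m a → (pack (G a i)).length ≤ Bd a) :
    PT Bool fun a => G a (m a) := by
  have := PT.natRec hm (fun a i => pack (G a i)) (pt_pack.comp h0)
    (fun x => pack (H (x.1, x.2.1, unpack x.2.2)))
    (pt_pack.comp (hH.comp (PT.pair (by fun_prop) (PT.pair (by fun_prop)
      (pt_unpack.comp (by fun_prop)))))) (fun a i => by rw [unpack_pack, hG]) hb
  exact (pt_unpack.comp this).congr fun a => unpack_pack _

/-- Folding with additive growth. -/
theorem pt_foldl [Ctx Bool γ] [Ret γ] {l : α → List γ} (hl : PT Bool l) {s : α → β}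
    (hs : PT Bool s) (F : α → β → γ → β) (hF : PT Bool fun x : α × β × γ => F x.1 x.2.1 x.2.2)
    (B : α → ℕ) (hB : PT Bool B)
    (hb : ∀ a b, ∀ c ∈ l a, (pack (F a b c)).length ≤ (pack b).length + B a) :
    PT Bool fun a => (l a).foldl (F a) (s a) := by
  refine (pt_rec (pt_length hl) (fun a i => ((l a).take i).foldl (F a) (s a)) (by simpa using hs)
    (fun x => cond (Nat.ble (l x.1).length x.2.1) x.2.2
      (F x.1 x.2.2 ((l x.1).getD x.2.1 (unpack []))))
    (PT.cond' (by fun_prop) (by fun_prop) (hF.comp (g := fun x : α × ℕ × β =>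
      (x.1, x.2.2, (l x.1).getD x.2.1 (unpack []))) (by fun_prop))) (fun a i => ?_)
    ⟨fun a => (pack (s a)).length + (l a).length * B a,
      PT.pb ((pt_pack.comp hs).length.add ((pt_length hl).mul hB)), fun a i hi => ?_⟩).congr
    fun a => by simp
  · by_cases h : (l a).length ≤ i
    · simp [Nat.ble_eq_true_of_le h, List.take_of_length_le h,
        List.take_of_length_le (show (l a).length ≤ i + 1 by omega)]
    · dsimp only
      rw [Bool.eq_false_iff.2 fun h' => h (Nat.le_of_ble_eq_true h'), cond_false,
        List.take_succ_eq_append_getElem (by omega), List.foldl_append,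
        List.getD_eq_getElem _ _ (by omega)]
      rfl
  · refine le_trans ?_ (Nat.add_le_add_left (Nat.mul_le_mul_right _ hi) _)
    induction i with
    | zero => simp
    | succ i ih =>
      rw [List.take_succ_eq_append_getElem (by omega), List.foldl_append]
      refine (hb _ _ _ (List.getElem_mem _)).trans ?_
      have := ih (by omega)
      rw [Nat.succ_mul]
      omega

end lists

end Vale.Agent.P333
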